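import Mathlib

/-!
# P038 (H96): the inner/outer comparison (357, 787): abstract core

`N` is a closed out-neighbourhood function (reflexive, antisymmetric), `w > 0` weights,
`h X = w(N[X]) - w(X)`.
-/

namespace Vale.Agent.P038.H96

open Finset

variable {V : Type*} [Fintype V] [DecidableEq V]

/-- total weight -/
noncomputable def S (w : V → ℝ) (X : Finset V) : ℝ := ∑ v ∈ X, w v

/-- `N[X]` -/
def E (N : V → Finset V) (X : Finset V) : Finset V := X.biUnion N

/-- `h X = w(N[X]) - w(X)` -/
noncomputable def h (N : V → Finset V) (w : V → ℝ) (X : Finset V) : ℝ := S w (E N X) - S w X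

omit [Fintype V] in
theorem mem_E {N : V → Finset V} {X : Finset V} {b : V} : b ∈ E N X ↔ ∃ y ∈ X, b ∈ N y := by
  simp [E]

omit [Fintype V] in
theorem E_mono {N : V → Finset V} {X Y : Finset V} (hXY : X ⊆ Y) : E N X ⊆ E N Y := by
  intro b hb
  rw [mem_E] at hb ⊢
  obtain ⟨y, hy, hb⟩ := hb
  exact ⟨y, hXY hy, hb⟩

omit [Fintype V] in
theorem sub_E {N : V → Finset V} (hr : ∀ a, a ∈ N a) (X : Finset V) : X ⊆ E N X := by
  intro b hb
  exact mem_E.2 ⟨b, hb, hr b⟩

omit [Fintype V] [DecidableEq V] in
theorem S_mono {w : V → ℝ} (hw : ∀ v, 0 < w v) {X Y : Finset V} (hXY : X ⊆ Y) :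
    S w X ≤ S w Y :=
  Finset.sum_le_sum_of_subset_of_nonneg hXY fun v _ _ => (hw v).le

omit [Fintype V] in
/-- submodularity -/
theorem h_sub {N : V → Finset V} {w : V → ℝ} (hw : ∀ v, 0 < w v) (X Y : Finset V) :
    h N w (X ∪ Y) + h N w (X ∩ Y) ≤ h N w X + h N w Y := by
  have e1 : E N (X ∪ Y) = E N X ∪ E N Y := by
    ext b
    simp only [mem_E, Finset.mem_union]
    constructor
    · rintro ⟨y, hy | hy, hb⟩
      · exact Or.inl ⟨y, hy, hb⟩
      · exact Or.inr ⟨y, hy, hb⟩
    · rintro (⟨y, hy, hb⟩ | ⟨y, hy, hb⟩)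
      · exact ⟨y, Or.inl hy, hb⟩
      · exact ⟨y, Or.inr hy, hb⟩
  have e2 : E N (X ∩ Y) ⊆ E N X ∩ E N Y :=
    Finset.subset_inter (E_mono Finset.inter_subset_left) (E_mono Finset.inter_subset_right)
  have e3 : S w (E N X ∪ E N Y) + S w (E N X ∩ E N Y) = S w (E N X) + S w (E N Y) :=
    Finset.sum_union_inter
  have e4 : S w (X ∪ Y) + S w (X ∩ Y) = S w X + S w Y := Finset.sum_union_inter
  have e5 := S_mono hw e2
  unfold h
  rw [e1]
  linarith

/-- Layer cake lemma. -/
theorem cake {w : V → ℝ} (hw : ∀ v, 0 < w v) (rel : V → V → Prop) (n : ℕ) :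
    ∀ (A : Finset V) (α γ : V → ℝ), A.card = n → (∀ a ∈ A, 0 ≤ α a) → (∀ z, 0 ≤ γ z) →
      (∀ a ∈ A, ∀ z, rel a z → α a ≤ γ z) →
      (∀ (T Z : Finset V), T ⊆ A → (∀ z, z ∈ Z ↔ ∃ a ∈ T, rel a z) → S w T ≤ S w Z) →
      ∑ a ∈ A, w a * α a ≤ ∑ z, w z * γ z := by
  classical
  induction n with
  | zero =>
    intro A α γ hA _ hγ _ _
    rw [Finset.card_eq_zero] at hA
    subst hA
    rw [Finset.sum_empty]
    exact Finset.sum_nonneg fun z _ => mul_nonneg (hw z).le (hγ z)
  | succ n ih =>
    intro A α γ hA hα hγ hαγ hH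
    have hne : A.Nonempty := by
      rw [← Finset.card_pos]; omega
    obtain ⟨a0, ha0, hmin⟩ := Finset.exists_min_image A α hne
    set m := α a0 with hm
    have hm0 : 0 ≤ m := hα a0 ha0
    set Z : Finset V := Finset.univ.filter fun z => ∃ a ∈ A, rel a z with hZ
    have hZm : ∀ z, z ∈ Z ↔ ∃ a ∈ A, rel a z := by
      intro z
      rw [hZ]
      simp
    have hmγ : ∀ z ∈ Z, m ≤ γ z := by
      intro z hz
      obtain ⟨a, ha, haz⟩ := (hZm z).1 hz
      exact (hmin a ha).trans (hαγ a ha z haz)
    have h1 := ih (A.erase a0) (fun a => α a - m) (fun z => if z ∈ Z then γ z - m else γ z)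
      (by rw [Finset.card_erase_of_mem ha0, hA]; rfl)
      (fun a ha => sub_nonneg.2 (hmin a (Finset.mem_of_mem_erase ha)))
      (fun z => by
        by_cases hz : z ∈ Z
        · simp only [hz, if_true]
          exact sub_nonneg.2 (hmγ z hz)
        · simp only [hz, if_false]
          exact hγ z)
      (fun a ha z haz => by
        have ha' := Finset.mem_of_mem_erase ha
        have hz : z ∈ Z := (hZm z).2 ⟨a, ha', haz⟩
        simp only [hz, if_true]
        have := hαγ a ha' z haz
        linarith)
      (fun T Z' hT hZ' => hH T Z' (hT.trans (Finset.erase_subset _ _)) hZ')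
    have h2 := hH A Z (Finset.Subset.refl _) hZm
    have h3 : ∑ a ∈ A, w a * α a = m * S w A + ∑ a ∈ A.erase a0, w a * (α a - m) := by
      have e1 : ∑ a ∈ A, w a * (α a - m) = ∑ a ∈ A.erase a0, w a * (α a - m) := by
        rw [← Finset.add_sum_erase A (fun a => w a * (α a - m)) ha0]
        simp [hm]
      rw [← e1]
      unfold S
      rw [Finset.mul_sum, ← Finset.sum_add_distrib]
      exact Finset.sum_congr rfl fun a _ => by ring
    have h4 : ∑ z, w z * γ z = m * S w Z + ∑ z, w z * (if z ∈ Z then γ z - m else γ z) := by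
      have e1 : m * S w Z = ∑ z, if z ∈ Z then m * w z else 0 := by
        unfold S
        rw [Finset.mul_sum, Finset.sum_ite_mem, Finset.univ_inter]
      rw [e1, ← Finset.sum_add_distrib]
      refine Finset.sum_congr rfl fun z _ => ?_
      by_cases hz : z ∈ Z
      · simp only [hz, if_true]; ring
      · simp only [hz, if_false]; ring
    have h5 : m * S w A ≤ m * S w Z := mul_le_mul_of_nonneg_left h2 hm0
    rw [h3, h4]
    linarith

/-- `k(P,Q;I)`: the minimum of `h` over the sets between `P ∪ (I ∩ Q)` and `Q`. -/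
noncomputable def k (N : V → Finset V) (w : V → ℝ) (P Q I : Finset V) : ℝ :=
  sInf {x | ∃ Y : Finset V, P ⊆ Y ∧ I ∩ Q ⊆ Y ∧ Y ⊆ Q ∧ x = h N w Y}

theorem k_fin (N : V → Finset V) (w : V → ℝ) (P Q I : Finset V) :
    {x | ∃ Y : Finset V, P ⊆ Y ∧ I ∩ Q ⊆ Y ∧ Y ⊆ Q ∧ x = h N w Y}.Finite := by
  refine (Set.finite_range (fun Y : Finset V => h N w Y)).subset ?_
  rintro x ⟨Y, -, -, -, rfl⟩
  exact ⟨Y, rfl⟩

theorem k_le {N : V → Finset V} {w : V → ℝ} {P Q I Y : Finset V} (h1 : P ⊆ Y) (h2 : I ∩ Q ⊆ Y)
    (h3 : Y ⊆ Q) : k N w P Q I ≤ h N w Y :=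
  csInf_le (k_fin N w P Q I).bddBelow ⟨Y, h1, h2, h3, rfl⟩

theorem k_att {N : V → Finset V} {w : V → ℝ} {P Q : Finset V} (hPQ : P ⊆ Q) (I : Finset V) :
    ∃ Y, P ⊆ Y ∧ I ∩ Q ⊆ Y ∧ Y ⊆ Q ∧ k N w P Q I = h N w Y := by
  have hne : {x | ∃ Y : Finset V, P ⊆ Y ∧ I ∩ Q ⊆ Y ∧ Y ⊆ Q ∧ x = h N w Y}.Nonempty :=
    ⟨_, Q, hPQ, Finset.inter_subset_right, Finset.Subset.refl _, rfl⟩
  exact hne.csInf_mem (k_fin N w P Q I)

theorem k_mono {N : V → Finset V} {w : V → ℝ} {P Q : Finset V} (hPQ : P ⊆ Q) {I J : Finset V}
    (hIJ : I ⊆ J) : k N w P Q I ≤ k N w P Q J := by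
  obtain ⟨Y, h1, h2, h3, h4⟩ := k_att (N := N) (w := w) hPQ J
  rw [h4]
  exact k_le h1 ((Finset.inter_subset_inter_right hIJ).trans h2) h3

/-- feasible pairs -/
structure Feas (N : V → Finset V) (B U : V → Finset V) : Prop where
  nb : ∀ a, N a ⊆ B a
  bu : ∀ a, B a ⊆ U a
  rev : ∀ a y, a ∈ N y → y ∈ U a → y = a

/-- `M_z`: the meet of `U_a` over `a` in the closed in-neighbourhood of `z`. -/
def meet (N : V → Finset V) (U : V → Finset V) (z : V) : Finset V :=
  Finset.univ.filter fun b => ∀ a, z ∈ N a → b ∈ U a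

theorem mem_meet {N U : V → Finset V} {z b : V} : b ∈ meet N U z ↔ ∀ a, z ∈ N a → b ∈ U a := by
  simp [meet]

/-- outer cost -/
noncomputable def cost (N : V → Finset V) (w : V → ℝ) (B U : V → Finset V) : ℝ :=
  ∑ a, w a * h N w (B a) + ∑ a, w a * S w (U a) - ∑ z, w z * S w (meet N U z)

/-- (R) -/
theorem optR {N : V → Finset V} {w : V → ℝ} (hw : ∀ v, 0 < w v) {B U : V → Finset V}
    (hF : Feas N B U) (hmin : ∀ B' U', Feas N B' U' → cost N w B U ≤ cost N w B' U')
    (a : V) (Y : Finset V) (h1 : B a ⊆ Y) (h2 : Y ⊆ U a) : h N w (B a) ≤ h N w Y := by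
  have hF' : Feas N (Function.update B a Y) U := by
    refine ⟨fun c => ?_, fun c => ?_, hF.rev⟩
    · by_cases hc : c = a
      · subst hc
        rw [Function.update_self]
        exact (hF.nb _).trans h1
      · rw [Function.update_of_ne hc]
        exact hF.nb c
    · by_cases hc : c = a
      · subst hc
        rw [Function.update_self]
        exact h2
      · rw [Function.update_of_ne hc]
        exact hF.bu c
  have h3 := hmin _ _ hF'
  unfold cost at h3
  have e1 : ∑ c, w c * h N w (Function.update B a Y c) =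
      ∑ c, w c * h N w (B c) + (w a * h N w Y - w a * h N w (B a)) := by
    have e2 : ∀ c, w c * h N w (Function.update B a Y c) = w c * h N w (B c) +
        (if c = a then w a * h N w Y - w a * h N w (B a) else 0) := by
      intro c
      by_cases hc : c = a
      · subst hc
        rw [Function.update_self]
        simp
      · rw [Function.update_of_ne hc]
        simp [hc]
    rw [Finset.sum_congr rfl fun c _ => e2 c, Finset.sum_add_distrib]
    simp
  rw [e1] at h3
  have h4 : w a * h N w (B a) ≤ w a * h N w Y := by linarith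
  exact le_of_mul_le_mul_left h4 (hw a)

omit [Fintype V] in
theorem S_erase {w : V → ℝ} {X : Finset V} {b : V} (hb : b ∈ X) :
    S w (X.erase b) = S w X - w b := by
  unfold S
  rw [← Finset.add_sum_erase X w hb]
  ring

/-- (C) -/
theorem optC {N : V → Finset V} {w : V → ℝ} (hw : ∀ v, 0 < w v) {B U : V → Finset V}
    (hF : Feas N B U) (hmin : ∀ B' U', Feas N B' U' → cost N w B U ≤ cost N w B' U')
    (b : V) (T Z : Finset V) (hT : ∀ a ∈ T, b ∈ U a ∧ b ∉ B a)
    (hZ : ∀ z, z ∈ Z ↔ ∃ a ∈ T, z ∈ N a ∧ b ∈ meet N U z) : S w T ≤ S w Z := by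
  classical
  set U' : V → Finset V := fun a => if a ∈ T then (U a).erase b else U a with hU'
  have hsub : ∀ a, U' a ⊆ U a := by
    intro a
    simp only [hU']
    split_ifs
    · exact Finset.erase_subset _ _
    · exact Finset.Subset.refl _
  have hF' : Feas N B U' := by
    refine ⟨hF.nb, fun c => ?_, fun a y h1 h2 => hF.rev a y h1 (hsub a h2)⟩
    by_cases hc : c ∈ T
    · have e1 : U' c = (U c).erase b := by simp only [hU', hc, if_true]
      rw [e1]
      intro x hx
      refine Finset.mem_erase.2 ⟨?_, hF.bu c hx⟩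
      rintro rfl
      exact (hT c hc).2 hx
    · have e1 : U' c = U c := by simp only [hU', hc, if_false]
      rw [e1]
      exact hF.bu c
  have h3 := hmin _ _ hF'
  unfold cost at h3
  have e1 : ∑ c, w c * S w (U' c) = ∑ c, w c * S w (U c) - w b * S w T := by
    have e2 : ∀ c, w c * S w (U' c) = w c * S w (U c) - (if c ∈ T then w b * w c else 0) := by
      intro c
      by_cases hc : c ∈ T
      · have e1 : U' c = (U c).erase b := by simp only [hU', hc, if_true]
        rw [e1, S_erase (hT c hc).1]
        simp only [hc, if_true]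
        ring
      · have e1 : U' c = U c := by simp only [hU', hc, if_false]
        rw [e1]
        simp [hc]
    rw [Finset.sum_congr rfl fun c _ => e2 c, Finset.sum_sub_distrib, Finset.sum_ite_mem,
      Finset.univ_inter, ← Finset.mul_sum]
    rfl
  have e3 : ∑ z, w z * S w (meet N U' z) = ∑ z, w z * S w (meet N U z) - w b * S w Z := by
    have e2 : ∀ z, w z * S w (meet N U' z) = w z * S w (meet N U z) -
        (if z ∈ Z then w b * w z else 0) := by
      intro z
      by_cases hz : z ∈ Z
      · obtain ⟨a, ha, haz, hbz⟩ := (hZ z).1 hz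
        have e1 : meet N U' z = (meet N U z).erase b := by
          ext x
          rw [Finset.mem_erase, mem_meet, mem_meet]
          constructor
          · intro hx
            refine ⟨?_, fun c hc => hsub c (hx c hc)⟩
            rintro rfl
            have := hx a haz
            simp only [hU', ha, if_true, Finset.mem_erase, ne_eq, not_true_eq_false,
              false_and] at this
          · rintro ⟨hxb, hx⟩ c hc
            by_cases hcT : c ∈ T
            · simp only [hU', hcT, if_true]
              exact Finset.mem_erase.2 ⟨hxb, hx c hc⟩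
            · simp only [hU', hcT, if_false]
              exact hx c hc
        rw [e1, S_erase hbz]
        simp only [hz, if_true]
        ring
      · have e1 : meet N U' z = meet N U z := by
          ext x
          rw [mem_meet, mem_meet]
          constructor
          · intro hx c hc
            exact hsub c (hx c hc)
          · intro hx c hc
            by_cases hcT : c ∈ T
            · simp only [hU', hcT, if_true]
              refine Finset.mem_erase.2 ⟨?_, hx c hc⟩
              rintro rfl
              exact hz ((hZ z).2 ⟨c, hcT, hc, mem_meet.2 hx⟩)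
            · simp only [hU', hcT, if_false]
              exact hx c hc
        rw [e1]
        simp [hz]
    rw [Finset.sum_congr rfl fun c _ => e2 c, Finset.sum_sub_distrib, Finset.sum_ite_mem,
      Finset.univ_inter, ← Finset.mul_sum]
    rfl
  rw [e1, e3] at h3
  have h4 : w b * S w T ≤ w b * S w Z := by linarith
  exact le_of_mul_le_mul_left h4 (hw b)

/-- one step of the gap inequality -/
theorem gap_step {N : V → Finset V} {w : V → ℝ} (hw : ∀ v, 0 < w v)
    {B U : V → Finset V}
    (hF : Feas N B U) (hmin : ∀ B' U', Feas N B' U' → cost N w B U ≤ cost N w B' U')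
    (b : V) (I : Finset V) :
    ∑ a, w a * (k N w (B a) (U a) (insert b I) - k N w (B a) (U a) I) ≤
      ∑ z, w z * (k N w (meet N B z) (meet N U z) (insert b I) -
        k N w (meet N B z) (meet N U z) I) := by
  classical
  have hmm : ∀ z, meet N B z ⊆ meet N U z := by
    intro z x hx
    rw [mem_meet] at hx ⊢
    exact fun a ha => hF.bu a (hx a ha)
  set α : V → ℝ := fun a => k N w (B a) (U a) (insert b I) - k N w (B a) (U a) I with hα
  set γ : V → ℝ := fun z => k N w (meet N B z) (meet N U z) (insert b I) -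
        k N w (meet N B z) (meet N U z) I with hγ
  set A : Finset V := Finset.univ.filter fun a => b ∈ U a ∧ b ∉ B a with hA
  have hAm : ∀ a, a ∈ A ↔ b ∈ U a ∧ b ∉ B a := by
    intro a
    simp [hA]
  have h1 : ∑ a, w a * α a ≤ ∑ a ∈ A, w a * α a := by
    rw [← Finset.sum_filter_add_sum_filter_not Finset.univ (fun a => b ∈ U a ∧ b ∉ B a)
      (fun a => w a * α a)]
    have : ∑ a ∈ Finset.univ.filter (fun a => ¬ (b ∈ U a ∧ b ∉ B a)), w a * α a ≤ 0 := by
      refine Finset.sum_nonpos fun a ha => ?_
      have ha' := (Finset.mem_filter.1 ha).2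
      have : α a ≤ 0 := by
        obtain ⟨Y, y1, y2, y3, y4⟩ := k_att (N := N) (w := w) (hF.bu a) I
        have : k N w (B a) (U a) (insert b I) ≤ h N w Y := by
          refine k_le y1 ?_ y3
          intro x hx
          obtain ⟨hx1, hx2⟩ := Finset.mem_inter.1 hx
          rcases Finset.mem_insert.1 hx1 with rfl | hx1
          · by_contra hxY
            exact ha' ⟨hx2, fun hxB => hxY (y1 hxB)⟩
          · exact y2 (Finset.mem_inter.2 ⟨hx1, hx2⟩)
        simp only [hα]
        linarith
      exact mul_nonpos_of_nonneg_of_nonpos (hw a).le this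
    linarith
  refine h1.trans ?_
  refine cake hw (fun a z => z ∈ N a ∧ b ∈ meet N U z) A.card A α γ rfl ?_ ?_ ?_ ?_
  · intro a _
    exact sub_nonneg.2 (k_mono (hF.bu a) (Finset.subset_insert _ _))
  · intro z
    exact sub_nonneg.2 (k_mono (hmm z) (Finset.subset_insert _ _))
  · rintro a _ z ⟨haz, hbz⟩
    obtain ⟨Y, y1, y2, y3, y4⟩ := k_att (N := N) (w := w) (hmm z) (insert b I)
    obtain ⟨Y', z1, z2, z3, z4⟩ := k_att (N := N) (w := w) (hF.bu a) I
    have hMU : meet N U z ⊆ U a := fun x hx => mem_meet.1 hx a haz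
    have hmB : meet N B z ⊆ B a := fun x hx => mem_meet.1 hx a haz
    have hbY : b ∈ Y := y2 (Finset.mem_inter.2 ⟨Finset.mem_insert_self _ _, hbz⟩)
    have q1 : k N w (B a) (U a) (insert b I) ≤ h N w (Y ∪ Y') := by
      refine k_le (z1.trans Finset.subset_union_right) ?_
        (Finset.union_subset (y3.trans hMU) z3)
      intro x hx
      obtain ⟨hx1, hx2⟩ := Finset.mem_inter.1 hx
      rcases Finset.mem_insert.1 hx1 with rfl | hx1
      · exact Finset.mem_union_left _ hbY
      · exact Finset.mem_union_right _ (z2 (Finset.mem_inter.2 ⟨hx1, hx2⟩))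
    have q2 : k N w (meet N B z) (meet N U z) I ≤ h N w (Y ∩ Y') := by
      refine k_le (Finset.subset_inter y1 (hmB.trans z1)) ?_
        (Finset.inter_subset_left.trans y3)
      intro x hx
      obtain ⟨hx1, hx2⟩ := Finset.mem_inter.1 hx
      exact Finset.mem_inter.2 ⟨y2 (Finset.mem_inter.2 ⟨Finset.mem_insert_of_mem hx1, hx2⟩),
        z2 (Finset.mem_inter.2 ⟨hx1, hMU hx2⟩)⟩
    have q3 := h_sub (N := N) hw Y Y'
    simp only [hα, hγ]
    linarith
  · intro T Z hT hZ
    exact optC hw hF hmin b T Z (fun a ha => (hAm a).1 (hT ha)) hZ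

/-- The gap inequality (787). -/
theorem gap {N : V → Finset V} {w : V → ℝ} (hw : ∀ v, 0 < w v)
    {B U : V → Finset V}
    (hF : Feas N B U) (hmin : ∀ B' U', Feas N B' U' → cost N w B U ≤ cost N w B' U') :
    ∑ a, w a * (h N w (U a) - h N w (B a)) ≤
      ∑ z, w z * (h N w (meet N U z) - h N w (meet N B z)) := by
  classical
  have hmm : ∀ z, meet N B z ⊆ meet N U z := by
    intro z x hx
    rw [mem_meet] at hx ⊢
    exact fun a ha => hF.bu a (hx a ha)
  have key : ∀ I : Finset V, ∑ a, w a * (k N w (B a) (U a) I - k N w (B a) (U a) ∅) ≤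
      ∑ z, w z * (k N w (meet N B z) (meet N U z) I - k N w (meet N B z) (meet N U z) ∅) := by
    intro I
    induction I using Finset.induction_on with
    | empty => simp
    | insert b I _ ih =>
      have h1 := gap_step hw hF hmin b I
      have e : ∀ (f g : V → ℝ) (c : V → ℝ), ∑ a, w a * (f a - c a) =
          ∑ a, w a * (f a - g a) + ∑ a, w a * (g a - c a) := by
        intro f g c
        rw [← Finset.sum_add_distrib]
        exact Finset.sum_congr rfl fun a _ => by ring
      have e1 : ∑ a, w a * (k N w (B a) (U a) (insert b I) - k N w (B a) (U a) ∅) =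
          ∑ a, w a * (k N w (B a) (U a) (insert b I) - k N w (B a) (U a) I) +
          ∑ a, w a * (k N w (B a) (U a) I - k N w (B a) (U a) ∅) := e _ _ _
      have e2 : ∑ z, w z * (k N w (meet N B z) (meet N U z) (insert b I) -
          k N w (meet N B z) (meet N U z) ∅) =
          ∑ z, w z * (k N w (meet N B z) (meet N U z) (insert b I) -
            k N w (meet N B z) (meet N U z) I) +
          ∑ z, w z * (k N w (meet N B z) (meet N U z) I -
            k N w (meet N B z) (meet N U z) ∅) := e _ _ _
      rw [e1, e2]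
      linarith
  have h1 := key Finset.univ
  have h2 : ∑ a, w a * (h N w (U a) - h N w (B a)) ≤
      ∑ a, w a * (k N w (B a) (U a) Finset.univ - k N w (B a) (U a) ∅) := by
    refine Finset.sum_le_sum fun a _ => mul_le_mul_of_nonneg_left ?_ (hw a).le
    obtain ⟨Y, y1, y2, y3, y4⟩ := k_att (N := N) (w := w) (hF.bu a) Finset.univ
    rw [Finset.univ_inter] at y2
    have : Y = U a := Finset.Subset.antisymm y3 y2
    rw [y4, this]
    have h3 : k N w (B a) (U a) ∅ ≤ h N w (B a) :=
      k_le (Finset.Subset.refl _) (by simp) (hF.bu a)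
    linarith
  have h3 : ∑ z, w z * (k N w (meet N B z) (meet N U z) Finset.univ -
      k N w (meet N B z) (meet N U z) ∅) ≤
      ∑ z, w z * (h N w (meet N U z) - h N w (meet N B z)) := by
    refine Finset.sum_le_sum fun z _ => mul_le_mul_of_nonneg_left ?_ (hw z).le
    have h4 : k N w (meet N B z) (meet N U z) Finset.univ ≤ h N w (meet N U z) :=
      k_le (hmm z) Finset.inter_subset_right (Finset.Subset.refl _)
    obtain ⟨Y, y1, y2, y3, y4⟩ := k_att (N := N) (w := w) (hmm z) ∅
    have h5 : ∀ T : Finset V, (∀ a ∈ T, z ∈ N a) →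
        h N w (Y.filter fun x => ∀ a ∈ T, x ∈ B a) ≤ h N w Y := by
      intro T
      induction T using Finset.induction_on with
      | empty =>
        intro _
        simp
      | insert c T _ ih =>
        intro hT
        have ih' := ih fun a ha => hT a (Finset.mem_insert_of_mem ha)
        set Y1 := Y.filter fun x => ∀ a ∈ T, x ∈ B a with hY1
        have e1 : (Y.filter fun x => ∀ a ∈ insert c T, x ∈ B a) = Y1 ∩ B c := by
          ext x
          simp only [hY1, Finset.mem_filter, Finset.mem_inter, Finset.mem_insert,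
            forall_eq_or_imp]
          tauto
        rw [e1]
        have hc : z ∈ N c := hT c (Finset.mem_insert_self _ _)
        have h6 : h N w (B c) ≤ h N w (Y1 ∪ B c) := by
          refine optR hw hF hmin c _ Finset.subset_union_right
            (Finset.union_subset ?_ (hF.bu c))
          intro x hx
          exact mem_meet.1 (y3 (Finset.mem_filter.1 hx).1) c hc
        have h7 := h_sub (N := N) hw Y1 (B c)
        linarith
    have h6 := h5 (Finset.univ.filter fun a => z ∈ N a) (fun a ha => (Finset.mem_filter.1 ha).2)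
    have e2 : (Y.filter fun x => ∀ a ∈ Finset.univ.filter (fun a => z ∈ N a), x ∈ B a) =
        meet N B z := by
      ext x
      simp only [Finset.mem_filter, Finset.mem_univ, true_and, mem_meet]
      constructor
      · rintro ⟨_, h8⟩ a ha
        exact h8 a ha
      · intro h8
        exact ⟨y1 (mem_meet.2 h8), h8⟩
    rw [e2] at h6
    rw [y4]
    linarith
  linarith

end Vale.Agent.P038.H96
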