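import Vale.Agent.P038.H96.Core
import Vale.Agent.P038.H71.Plan

/-!
# P038 (H96): end of the proof: inner candidate, cost comparison, glue with the strict (G)
-/

namespace Vale.Agent.P038.H96

open Finset

section abs

variable {V : Type*} [Fintype V] [DecidableEq V]

/-- column form of the total measure of a relation -/
theorem mu_col (w : V → ℝ) (R : V → Finset V) :
    ∑ a, w a * S w (R a) = ∑ b, w b * S w (Finset.univ.filter fun a => b ∈ R a) := by
  have e1 : ∀ a, w a * S w (R a) = ∑ b, if b ∈ R a then w a * w b else 0 := by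
    intro a
    unfold S
    rw [Finset.mul_sum, Finset.sum_ite_mem, Finset.univ_inter]
  have e2 : ∀ b, w b * S w (Finset.univ.filter fun a => b ∈ R a) =
      ∑ a, if b ∈ R a then w a * w b else 0 := by
    intro b
    unfold S
    rw [Finset.mul_sum, Finset.sum_filter]
    exact Finset.sum_congr rfl fun a _ => by split_ifs <;> ring
  rw [Finset.sum_congr rfl fun a _ => e1 a, Finset.sum_congr rfl fun b _ => e2 b]
  exact Finset.sum_comm

theorem S_ins (w : V → ℝ) {b : V} {X : Finset V} (hb : b ∈ X) :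
    S w (insert b Xᶜ) = w b + S w Finset.univ - S w X := by
  have h1 : b ∉ Xᶜ := by simpa using hb
  have h2 : S w X + S w Xᶜ = S w Finset.univ := Finset.sum_add_sum_compl X w
  have h3 : S w (insert b Xᶜ) = w b + S w Xᶜ := Finset.sum_insert h1
  linarith

/-- the candidate `U'` -/
def Uc (N U : V → Finset V) (a : V) : Finset V :=
  Finset.univ.filter fun b => (∀ z, a ∈ N z → b ∈ E N (U z)) ∧ (a ∈ N b → b = a)

theorem mem_Uc {N U : V → Finset V} {a b : V} :
    b ∈ Uc N U a ↔ (∀ z, a ∈ N z → b ∈ E N (U z)) ∧ (a ∈ N b → b = a) := by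
  simp [Uc]

theorem E_meet_sub {N B U : V → Finset V} (hr : ∀ a, a ∈ N a) (hF : Feas N B U) (z : V) :
    E N (meet N U z) ⊆ Uc N U z := by
  intro b hb
  obtain ⟨y, hy, hby⟩ := mem_E.1 hb
  rw [mem_meet] at hy
  refine mem_Uc.2 ⟨fun c hc => mem_E.2 ⟨y, hy c hc, hby⟩, fun hzb => ?_⟩
  have h1 : y = b := hF.rev b y hby (hy b hzb)
  subst h1
  exact hF.rev z y hzb (hy z (hr z))

theorem feas_cand {N B U : V → Finset V} (hr : ∀ a, a ∈ N a) (hF : Feas N B U) :
    Feas N (fun z => E N (meet N B z)) (Uc N U) := by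
  refine ⟨fun z x hx => mem_E.2 ⟨z, mem_meet.2 fun a ha => hF.nb a ha, hx⟩, fun z => ?_,
    fun a y h1 h2 => (mem_Uc.1 h2).2 h1⟩
  refine (E_mono ?_).trans (E_meet_sub hr hF z)
  intro x hx
  rw [mem_meet] at hx ⊢
  exact fun a ha => hF.bu a (hx a ha)

/-- the sets `Y_b` -/
def Yc (N U : V → Finset V) (b : V) : Finset V :=
  Finset.univ.filter fun z => z = b ∨ b ∉ E N (U z)

theorem mem_Yc {N U : V → Finset V} {b z : V} : z ∈ Yc N U b ↔ z = b ∨ b ∉ E N (U z) := by
  simp [Yc]

theorem col1 {N B U : V → Finset V} (hr : ∀ a, a ∈ N a) (hF : Feas N B U) (b : V) :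
    (Finset.univ.filter fun z => b ∈ E N (U z)) = insert b (Yc N U b)ᶜ := by
  ext z
  simp only [Finset.mem_filter, Finset.mem_univ, true_and, Finset.mem_insert,
    Finset.mem_compl, mem_Yc]
  constructor
  · intro hz
    by_cases hzb : z = b
    · exact Or.inl hzb
    · exact Or.inr (by rintro (h | h); exacts [hzb h, h hz])
  · rintro (rfl | h)
    · exact mem_E.2 ⟨z, hF.bu z (hF.nb z (hr z)), hr z⟩
    · push Not at h
      exact h.2

theorem col2 {N B U : V → Finset V} (hr : ∀ a, a ∈ N a) (hF : Feas N B U) (b : V) :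
    (Finset.univ.filter fun a => b ∈ Uc N U a) = insert b (E N (Yc N U b))ᶜ := by
  ext a
  simp only [Finset.mem_filter, Finset.mem_univ, true_and, Finset.mem_insert,
    Finset.mem_compl, mem_Uc, mem_E, mem_Yc]
  constructor
  · rintro ⟨h1, h2⟩
    by_cases hab : a = b
    · exact Or.inl hab
    · refine Or.inr ?_
      rintro ⟨z, rfl | hz, haz⟩
      · exact hab (h2 haz).symm
      · exact hz (h1 z haz)
  · rintro (rfl | h)
    · refine ⟨fun z hz => ⟨a, hF.bu z (hF.nb z hz), hr a⟩, fun _ => rfl⟩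
    · refine ⟨fun z hz => ?_, fun hab => ?_⟩
      · by_contra hc
        exact h ⟨z, Or.inr hc, hz⟩
      · exact absurd ⟨b, Or.inl rfl, hab⟩ h

theorem col3 {N B U : V → Finset V} (hr : ∀ a, a ∈ N a) (hF : Feas N B U) (b : V) :
    (Finset.univ.filter fun z => b ∈ meet N (Uc N U) z) =
      insert b (E N (E N (Yc N U b)))ᶜ := by
  have hc := col2 hr hF b
  have hc' : ∀ a, b ∈ Uc N U a ↔ (a = b ∨ a ∉ E N (Yc N U b)) := by
    intro a
    have : a ∈ (Finset.univ.filter fun a => b ∈ Uc N U a) ↔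
        a ∈ insert b (E N (Yc N U b))ᶜ := by rw [hc]
    simpa using this
  have hbb : b ∈ Yc N U b := mem_Yc.2 (Or.inl rfl)
  ext z
  simp only [Finset.mem_filter, Finset.mem_univ, true_and, Finset.mem_insert,
    Finset.mem_compl, mem_meet]
  constructor
  · intro h1
    by_cases hzb : z = b
    · exact Or.inl hzb
    · refine Or.inr fun h2 => ?_
      obtain ⟨a, ha, haz⟩ := mem_E.1 h2
      rcases (hc' a).1 (h1 a haz) with rfl | h3
      · rcases (hc' z).1 (h1 z (hr z)) with h4 | h4
        · exact hzb h4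
        · exact h4 (mem_E.2 ⟨a, hbb, haz⟩)
      · exact h3 ha
  · rintro (rfl | h1) a haz
    · exact (feas_cand hr hF).bu a ((feas_cand hr hF).nb a haz)
    · refine (hc' a).2 (Or.inr fun h2 => h1 (mem_E.2 ⟨a, h2, haz⟩))

/-- The abstract core: with (G) all meets of the optimal `B` are closed. -/
theorem core {N : V → Finset V} {w : V → ℝ} (hw : ∀ v, 0 < w v) (hr : ∀ a, a ∈ N a)
    (ha : ∀ a b, b ∈ N a → a ∈ N b → a = b)
    (hG : ∀ X, h N w (E N X) ≤ h N w X)
    (hGs : ∀ X, E N X ≠ X → h N w (E N X) < h N w X) :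
    ∃ m : V → Finset V, (∀ z, z ∈ m z) ∧ (∀ z, E N (m z) = m z) ∧
      ∀ z y, z ∈ N y → y ∈ m z → y = z := by
  classical
  obtain ⟨⟨B, U⟩, hF, hmin⟩ := Set.exists_min_image
    {p : (V → Finset V) × (V → Finset V) | Feas N p.1 p.2} (fun p => cost N w p.1 p.2)
    (Set.toFinite _) ⟨(N, N), ⟨fun _ => Finset.Subset.refl _, fun _ => Finset.Subset.refl _,
      fun a y h1 h2 => (ha a y h2 h1).symm⟩⟩
  change Feas N B U at hF
  have hmin' : ∀ B' U', Feas N B' U' → cost N w B U ≤ cost N w B' U' :=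
    fun B' U' h' => hmin (B', U') h'
  refine ⟨meet N B, fun z => mem_meet.2 fun a haz => hF.nb a haz, ?_, ?_⟩
  swap
  · intro z y h1 h2
    exact hF.rev z y h1 (hF.bu z (mem_meet.1 h2 z (hr z)))
  have hgap := gap hw hF hmin'
  have hcost := hmin' _ _ (feas_cand hr hF)
  -- column identities
  have hYb : ∀ b, b ∈ Yc N U b := fun b => mem_Yc.2 (Or.inl rfl)
  have m1 : ∑ a, w a * S w (E N (U a)) =
      ∑ b, w b * (w b + S w Finset.univ - S w (Yc N U b)) := by
    rw [mu_col w (fun a => E N (U a))]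
    refine Finset.sum_congr rfl fun b _ => ?_
    rw [col1 hr hF b, S_ins w (hYb b)]
  have m2 : ∑ a, w a * S w (Uc N U a) =
      ∑ b, w b * (w b + S w Finset.univ - S w (E N (Yc N U b))) := by
    rw [mu_col w (Uc N U)]
    refine Finset.sum_congr rfl fun b _ => ?_
    rw [col2 hr hF b, S_ins w (sub_E hr _ (hYb b))]
  have m3 : ∑ a, w a * S w (meet N (Uc N U) a) =
      ∑ b, w b * (w b + S w Finset.univ - S w (E N (E N (Yc N U b)))) := by
    rw [mu_col w (meet N (Uc N U))]
    refine Finset.sum_congr rfl fun b _ => ?_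
    rw [col3 hr hF b, S_ins w (sub_E hr _ (sub_E hr _ (hYb b)))]
  have m4 : ∑ a, w a * S w (Uc N U a) - ∑ a, w a * S w (meet N (Uc N U) a) ≤
      ∑ a, w a * S w (E N (U a)) - ∑ a, w a * S w (Uc N U a) := by
    rw [m1, m2, m3, ← Finset.sum_sub_distrib, ← Finset.sum_sub_distrib]
    refine Finset.sum_le_sum fun b _ => ?_
    have h1 := hG (Yc N U b)
    unfold h at h1
    have h2 := mul_le_mul_of_nonneg_left h1 (hw b).le
    linarith
  have m5 : ∑ z, w z * h N w (meet N U z) + ∑ z, w z * S w (meet N U z) ≤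
      ∑ a, w a * S w (Uc N U a) := by
    rw [← Finset.sum_add_distrib]
    refine Finset.sum_le_sum fun z _ => ?_
    have h1 := S_mono hw (E_meet_sub hr hF z)
    have h2 := mul_le_mul_of_nonneg_left h1 (hw z).le
    unfold h
    linarith
  have m6 : ∑ a, w a * S w (E N (U a)) = ∑ a, w a * h N w (U a) + ∑ a, w a * S w (U a) := by
    rw [← Finset.sum_add_distrib]
    refine Finset.sum_congr rfl fun z _ => ?_
    unfold h
    ring
  have g1 : ∑ a, w a * (h N w (U a) - h N w (B a)) =
      ∑ a, w a * h N w (U a) - ∑ a, w a * h N w (B a) := by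
    rw [← Finset.sum_sub_distrib]
    exact Finset.sum_congr rfl fun z _ => by ring
  have g2 : ∑ z, w z * (h N w (meet N U z) - h N w (meet N B z)) =
      ∑ z, w z * h N w (meet N U z) - ∑ z, w z * h N w (meet N B z) := by
    rw [← Finset.sum_sub_distrib]
    exact Finset.sum_congr rfl fun z _ => by ring
  rw [g1, g2] at hgap
  unfold cost at hcost
  have m7 : ∑ z, w z * h N w (meet N B z) ≤ ∑ z, w z * h N w (E N (meet N B z)) := by
    linarith
  intro z
  by_contra hz
  have m8 : ∑ z, w z * h N w (E N (meet N B z)) < ∑ z, w z * h N w (meet N B z) := by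
    refine Finset.sum_lt_sum (fun y _ => mul_le_mul_of_nonneg_left (hG _) (hw y).le)
      ⟨z, Finset.mem_univ _, ?_⟩
    exact mul_lt_mul_of_pos_left (hGs _ hz) (hw z)
  linarith

end abs

open Vale.Agent.P038.H139 Vale.Agent.P038.H71

theorem no_closed {V : Type*} [Fintype V] [Nonempty V] (D : OGraph V)
    (hout : ∀ v, ∃ u, D.arc v u) (m : V → Finset V) (hm : ∀ z, z ∈ m z)
    (hcl : ∀ z y x, y ∈ m z → D.arc y x → x ∈ m z) (hrev : ∀ z y, D.arc y z → y ∉ m z) :
    False := by
  classical
  set R : V → Finset V := fun z => Finset.univ.filter fun y => Relation.ReflTransGen D.arc z y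
    with hR
  have hRm : ∀ z y, y ∈ R z ↔ Relation.ReflTransGen D.arc z y := by
    intro z y
    simp [hR]
  obtain ⟨z, -, hz⟩ := Finset.exists_min_image (Finset.univ : Finset V) (fun z => (R z).card)
    Finset.univ_nonempty
  obtain ⟨y, hzy⟩ := hout z
  have h1 : R y ⊆ R z := by
    intro x hx
    rw [hRm] at hx ⊢
    exact Relation.ReflTransGen.head hzy hx
  have h2 : R y = R z := Finset.eq_of_subset_of_card_le h1 (hz y (Finset.mem_univ _))
  have h3 : z ∈ R y := by
    rw [h2, hRm]
  rw [hRm] at h3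
  rcases Relation.ReflTransGen.cases_tail h3 with h4 | ⟨c, h4, h5⟩
  · rw [h4] at hzy
    exact D.loopless _ hzy
  · have h6 : c ∈ R z := by
      rw [← h2, hRm]
      exact h4
    rw [hRm] at h6
    have h7 : ∀ x, Relation.ReflTransGen D.arc z x → x ∈ m z := by
      intro x hx
      induction hx with
      | refl => exact hm z
      | tail _ hbc ih => exact hcl z _ _ ih hbc
    exact hrev z c h5 (h7 c h6)

theorem no_nfmin {V : Type*} [Fintype V] [Nonempty V] {D : OGraph V} {w : V → ℝ}
    (hN : NFmin 1 D w) : False := by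
  classical
  set N : V → Finset V := fun a => insert a (N1 D a) with hNdef
  have hNm : ∀ a b, b ∈ N a ↔ b = a ∨ D.arc a b := by
    intro a b
    simp only [hNdef, Finset.mem_insert, mem_N1]
  have hE : ∀ X, E N X = cl D X := by
    intro X
    ext z
    rw [mem_E, mem_cl]
    constructor
    · rintro ⟨y, hy, hz⟩
      rcases (hNm y z).1 hz with rfl | hz
      · exact Or.inl hy
      · exact Or.inr ⟨y, hy, hz⟩
    · rintro (hz | ⟨y, hy, hz⟩)
      · exact ⟨z, hz, (hNm z z).2 (Or.inl rfl)⟩
      · exact ⟨y, hy, (hNm y z).2 (Or.inr hz)⟩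
  have hpos : ∀ v, 0 < w v := hN.pos
  have hstrict : ∀ X, E N X ≠ X → h N w (E N X) < h N w X := by
    intro X hX
    have hX' : cl D X = X ∪ Lx D X := by
      ext z
      rw [mem_cl, Finset.mem_union]
      unfold Lx
      rw [Finset.mem_sdiff, mem_outS]
      tauto
    have hdisj : Disjoint X (Lx D X) := Finset.disjoint_sdiff
    have hne : (Lx D X) ≠ ∅ := by
      intro h0
      apply hX
      rw [hE, hX', h0, Finset.union_empty]
    have h1 := plan_lt hN X ∅ (Finset.empty_ssubset.2 (Finset.nonempty_iff_ne_empty.2 hne))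
    have h2 : dd 1 D w X ∅ = 0 := by
      have e : cl D (∅ : Finset V) = ∅ := by
        ext z
        rw [mem_cl]
        simp
      unfold dd
      rw [e]
      simp [W]
    rw [h2] at h1
    unfold dd at h1
    have hcc : cl D (cl D X) = X ∪ (cl D (Lx D X) \ X) := by
      rw [hX', cl_union, hX']
      ext z
      simp only [Finset.mem_union, Finset.mem_sdiff, mem_cl]
      tauto
    have hd2 : Disjoint X (cl D (Lx D X) \ X) := Finset.disjoint_sdiff
    have w1 : S w (cl D X) = S w X + S w (Lx D X) := by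
      rw [hX']
      exact Finset.sum_union hdisj
    have w2 : S w (cl D (cl D X)) = S w X + S w (cl D (Lx D X) \ X) := by
      rw [hcc]
      exact Finset.sum_union hd2
    have w3 : W w (cl D (Lx D X) \ X) = S w (cl D (Lx D X) \ X) := rfl
    have w4 : W w (Lx D X) = S w (Lx D X) := rfl
    rw [w3, w4] at h1
    unfold h
    rw [hE, hE, w1, w2]
    linarith
  have hGw : ∀ X, h N w (E N X) ≤ h N w X := by
    intro X
    by_cases hX : E N X = X
    · rw [hX]
    · exact (hstrict X hX).le
  obtain ⟨m, hm1, hm2, hm3⟩ := core (N := N) (w := w) hpos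
    (fun a => (hNm a a).2 (Or.inl rfl))
    (fun a b h1 h2 => by
      rcases (hNm a b).1 h1 with h1 | h1
      · exact h1.symm
      · rcases (hNm b a).1 h2 with h2 | h2
        · exact h2
        · exact absurd h2 (D.asymm _ _ h1)) hGw hstrict
  refine no_closed D ?_ m hm1 ?_ ?_
  · intro v
    by_contra hno
    push Not at hno
    have h1 := hN.one v
    have e1 : N1 D v = ∅ := by
      ext x
      rw [mem_N1]
      simp [hno x]
    have e2 : N2 D v = ∅ := by
      ext x
      rw [mem_N2]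
      simp [hno]
    unfold Fw W at h1
    rw [e1, e2] at h1
    simp at h1
  · intro z y x hy hyx
    rw [← hm2 z]
    exact mem_E.2 ⟨y, hy, (hNm y x).2 (Or.inr hyx)⟩
  · intro z y hyz hy
    have h1 := hm3 z y ((hNm y z).2 (Or.inr hyz)) hy
    rw [h1] at hyz
    exact D.loopless _ hyz

theorem no_nf {V : Type*} [Fintype V] [Nonempty V] (D : OGraph V) (w : V → ℝ) :
    ¬ NF 1 D w := by
  intro hN
  obtain ⟨D', w', h'⟩ := exists_nfmin hN
  exact no_nfmin h'

/-- Seymour's second neighbourhood conjecture, weighted form. -/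
theorem snc_weighted {V : Type*} [Fintype V] [Nonempty V] (D : OGraph V) (w : V → ℝ)
    (hw : ∀ v, 0 ≤ w v) : ∃ v, ∑ u ∈ N1 D v, w u ≤ ∑ u ∈ N2 D v, w u := by
  obtain ⟨v, hv⟩ := snc_of_noNF (lam := 1) zero_le_one (fun V _ _ D w => no_nf D w) D w hw
  exact ⟨v, by simpa using hv⟩

/-- Seymour's second neighbourhood conjecture. -/
theorem snc {V : Type*} [Fintype V] [Nonempty V] (D : OGraph V) :
    ∃ v, (N1 D v).card ≤ (N2 D v).card := by
  obtain ⟨v, hv⟩ := snc_weighted D (fun _ => 1) (fun _ => zero_le_one)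
  refine ⟨v, ?_⟩
  simp only [Finset.sum_const, nsmul_eq_mul, mul_one] at hv
  exact_mod_cast hv

end Vale.Agent.P038.H96

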